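import Vale.Agent.P050.H687.Leaf
import Vale.Agent.P050.Deg.Cycle
import Vale.Agent.P050.Deg.Few
import Mathlib.Combinatorics.SimpleGraph.Prod

/-!
P050: three quarters of a Cartesian product.
-/

set_option linter.unusedSectionVars false

namespace Vale.Agent.P050.H687

open Finset Vale.Agent.P050.Lev Vale.Agent.P050.Tmpl Vale.Agent.P050.H177

theorem thin_of_le_one {V : Type} [DecidableEq V] {H : SimpleGraph V} {R B : Finset V}
    (h0 : ∀ w ∈ B, w ∉ R)
    (h : ∀ w ∈ B, ∀ x ∈ R ∪ B, ∀ y ∈ R ∪ B, H.Adj w x → H.Adj w y → x = y) : Thin H R B := by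
  induction B using Finset.induction_on with
  | empty => exact Thin.empty
  | insert w B hw ih =>
    have hsub : R ∪ B ⊆ R ∪ insert w B := union_subset_union_right (subset_insert w B)
    refine Thin.insert w (ih (fun v hv => h0 v (mem_insert_of_mem hv)) fun v hv x hx y hy =>
      h v (mem_insert_of_mem hv) x (hsub hx) y (hsub hy)) (h0 w (mem_insert_self w B)) hw
      fun x hx y hy => h w (mem_insert_self w B) x (hsub hx) y (hsub hy)

section prod

variable {VG V : Type} [Fintype VG] [DecidableEq VG] [Fintype V] [DecidableEq V]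
  {G : SimpleGraph VG} {t : VG → Bool} {H : SimpleGraph V} {s : V → Bool}

/-- the vertices of the Cartesian product of two 2-coloured graphs which do not have the colour
`true` in both factors -/
abbrev Q3 (t : VG → Bool) (s : V → Bool) : Type := {x : VG × V // t x.1 = false ∨ s x.2 = false}

/-- the Cartesian product of two 2-coloured graphs, without one of the four classes of vertices -/
def prod3 (G : SimpleGraph VG) (t : VG → Bool) (H : SimpleGraph V) (s : V → Bool) :
    SimpleGraph (Q3 t s) := (G □ H).comap Subtype.val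

/-- the bijection -/
def toQ3 (t : VG → Bool) (s : V → Bool) :
    RV t (Sum.isRight : V ⊕ {v // s v = false} → Bool) ∅ → Q3 t s
  | Sum.inl u => absurd u.2 (notMem_empty _)
  | Sum.inr ⟨(p, Sum.inl v), h⟩ => ⟨(p, v), Or.inl h.2⟩
  | Sum.inr ⟨(p, Sum.inr l), _⟩ => ⟨(p, l.1), Or.inr l.2⟩

theorem toQ3_bij (t : VG → Bool) (s : V → Bool) : Function.Bijective (toQ3 t s) := by
  constructor
  · rintro (u | ⟨⟨p, v | l⟩, h⟩) (w | ⟨⟨q, x | k⟩, h'⟩) he
    · exact absurd u.2 (notMem_empty _)
    · exact absurd u.2 (notMem_empty _)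
    · exact absurd u.2 (notMem_empty _)
    · exact absurd w.2 (notMem_empty _)
    · simp only [toQ3, Subtype.mk.injEq, Prod.mk.injEq] at he
      obtain ⟨rfl, rfl⟩ := he
      rfl
    · simp only [toQ3, Subtype.mk.injEq, Prod.mk.injEq] at he
      obtain ⟨rfl, rfl⟩ := he
      have h1 := h.2
      have h2 := h'.2
      simp only [Sum.isRight_inl, Sum.isRight_inr] at h1 h2
      rw [h1] at h2
      exact absurd h2 (by decide)
    · exact absurd w.2 (notMem_empty _)
    · simp only [toQ3, Subtype.mk.injEq, Prod.mk.injEq] at he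
      obtain ⟨rfl, rfl⟩ := he
      have h1 := h.2
      have h2 := h'.2
      simp only [Sum.isRight_inl, Sum.isRight_inr] at h1 h2
      rw [h1] at h2
      exact absurd h2 (by decide)
    · simp only [toQ3, Subtype.mk.injEq, Prod.mk.injEq] at he
      obtain ⟨rfl, h2⟩ := he
      obtain rfl : l = k := Subtype.ext h2
      rfl
  · rintro ⟨⟨p, v⟩, h⟩
    by_cases hp : t p = false
    · exact ⟨Sum.inr ⟨(p, Sum.inl v), notMem_empty _, hp⟩, rfl⟩
    · have hv : s v = false := h.resolve_left hp
      exact ⟨Sum.inr ⟨(p, Sum.inr ⟨v, hv⟩), notMem_empty _, by simpa using hp⟩, rfl⟩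

/-- **Three quarters of the Cartesian product.** -/
theorem prod3_gsid (hG : GSid G t) (hH : GSid H s) (hGi : ∀ p, ∃ q, G.Adj p q)
    (hHi : ∀ u, ∃ v, H.Adj u v) : GSid (prod3 G t H s) (fun x => t x.1.1 || s x.1.2) := by
  classical
  rcases isEmpty_or_nonempty VG with hne | hne
  · exact Deg.gsid_of_no_edge fun u _ => (hne.false u.1.1).elim
  have h1 := main VG (V ⊕ {v // s v = false}) G t (leaves H Subtype.val) (leafSide s Subtype.val) ∅
    Sum.isRight hne hG (leaf_gsid hH hHi Subtype.val) hGi (by
      rintro (u | l)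
      · obtain ⟨v, hv⟩ := hHi u
        exact ⟨Sum.inl v, hv⟩
      · exact ⟨Sum.inl l.1, rfl⟩) Thin.empty (Or.inr (thin_of_le_one (by
        rintro (u | l) hw
        · simp [pt] at hw
        · simp [pt]) (by
        rintro (u | l) hw
        · simp [pt] at hw
        · rintro (x | x) _ (y | y) _ hx hy
          · have e1 : x = l.1 := hx
            have e2 : y = l.1 := hy
            rw [e1, e2]
          · exact hy.elim
          · exact hx.elim
          · exact hy.elim)))
  have hcol : ∀ {p q}, t p = t q → ¬ G.Adj p q := fun h0 h2 => hG.1 _ _ h2 h0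
  have hcol' : ∀ {u v}, s u = s v → ¬ H.Adj u v := fun h0 h2 => hH.1 _ _ h2 h0
  refine Deg.gsid_iso (Equiv.ofBijective _ (toQ3_bij t s)) ?_ ?_ h1
  · rintro (u | ⟨⟨p, v | l⟩, h⟩) (w | ⟨⟨q, x | k⟩, h'⟩)
    · exact absurd u.2 (notMem_empty _)
    · exact absurd u.2 (notMem_empty _)
    · exact absurd u.2 (notMem_empty _)
    · exact absurd w.2 (notMem_empty _)
    · have e1 : t p = t q := h.2.trans h'.2.symm
      simp only [Equiv.ofBijective_apply, toQ3, prod3, SimpleGraph.comap_adj,
        SimpleGraph.boxProd_adj, relSub, leaves]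
      have := hcol e1
      tauto
    · have e1 : p ≠ q := by
        rintro rfl
        have h1 := h.2
        have h2 := h'.2
        simp only [Sum.isRight_inl, Sum.isRight_inr] at h1 h2
        rw [h1] at h2
        exact absurd h2 (by decide)
      simp only [Equiv.ofBijective_apply, toQ3, prod3, SimpleGraph.comap_adj,
        SimpleGraph.boxProd_adj, relSub, leaves]
      tauto
    · exact absurd w.2 (notMem_empty _)
    · have e1 : p ≠ q := by
        rintro rfl
        have h1 := h.2
        have h2 := h'.2
        simp only [Sum.isRight_inl, Sum.isRight_inr] at h1 h2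
        rw [h1] at h2
        exact absurd h2 (by decide)
      simp only [Equiv.ofBijective_apply, toQ3, prod3, SimpleGraph.comap_adj,
        SimpleGraph.boxProd_adj, relSub, leaves, eq_comm]
      tauto
    · have e1 : t p = t q := h.2.trans h'.2.symm
      have e2 : s l.1 = s k.1 := l.2.trans k.2.symm
      simp only [Equiv.ofBijective_apply, toQ3, prod3, SimpleGraph.comap_adj,
        SimpleGraph.boxProd_adj, relSub, leaves]
      have := hcol e1
      have := hcol' e2
      tauto
  · rintro (u | ⟨⟨p, v | l⟩, h⟩)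
    · exact absurd u.2 (notMem_empty _)
    · have e1 : t p = false := h.2
      simp [toQ3, subSide, leafSide, e1]
    · have e1 : t p = true := h.2
      have e2 := l.2
      simp [toQ3, subSide, leafSide, e1, e2]

end prod

end Vale.Agent.P050.H687
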