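import Vale.Agent.P050.H687.Main

/-!
P050: leaves keep the two-sided Sidorenko inequality.
-/

set_option linter.unusedSectionVars false

namespace Vale.Agent.P050.H687

open Finset Vale.Agent.P050.Lev Vale.Agent.P050.Tmpl Vale.Agent.P050.H177

/-- `H` with a new vertex for each `l`, adjacent to `x l` only -/
def leaves {V L : Type} (H : SimpleGraph V) (x : L → V) : SimpleGraph (V ⊕ L) where
  Adj
    | Sum.inl u, Sum.inl v => H.Adj u v
    | Sum.inl u, Sum.inr l => u = x l
    | Sum.inr l, Sum.inl u => u = x l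
    | Sum.inr _, Sum.inr _ => False
  symm := ⟨by
    rintro (u | l) (v | k) h
    · exact h.symm
    · exact h
    · exact h
    · exact h⟩
  loopless := ⟨by
    rintro (u | l) h
    · exact H.loopless.irrefl _ h
    · exact h⟩

/-- the 2-colouring of `leaves` -/
def leafSide {V L : Type} (s : V → Bool) (x : L → V) : V ⊕ L → Bool :=
  Sum.elim s fun l => !s (x l)

section leaf

variable {V L : Type} [Fintype V] [DecidableEq V] [Fintype L] [DecidableEq L]
  {H : SimpleGraph V} {s : V → Bool}

theorem leaf_gsid (h : GSid H s) (hi : ∀ u, ∃ v, H.Adj u v) (x : L → V) :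
    GSid (leaves H x) (leafSide s x) := by
  classical
  have hs : ∀ u v, (leaves H x).Adj u v → leafSide s x u ≠ leafSide s x v := by
    rintro (u | l) (v | k) huv
    · exact h.1 u v huv
    · have : u = x k := huv
      subst this
      simp [leafSide]
    · have : v = x l := huv
      subst this
      simp [leafSide]
    · exact huv.elim
  refine H743.Clo.gsid_of hs ?_ ?_
  · rintro (u | l)
    · obtain ⟨v, hv⟩ := hi u
      exact ⟨Sum.inl v, hv⟩
    · exact ⟨Sum.inl (x l), rfl⟩
  intro U _ m W hb
  have h1 := H743.Clo.one_le_dens h hb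
  refine h1.trans (le_of_eq ?_)
  -- the factor of the leaf `l`
  set f : L → U → U → ℝ := fun l a b => if s (x l) = false then W a b else W b a with hf
  have hE : ∀ z : V ⊕ L → U, ∏ e ∈ sideEdges (leaves H x) (leafSide s x), W (z e.1) (z e.2) =
      (∏ e ∈ sideEdges H s, W (z (Sum.inl e.1)) (z (Sum.inl e.2))) *
        ∏ l, f l (z (Sum.inl (x l))) (z (Sum.inr l)) := by
    intro z
    rw [H410.edges, H410.edges H s W (fun v => z (Sum.inl v))]
    simp only [Fintype.prod_sum_type]
    rw [prod_mul_distrib, prod_mul_distrib, mul_assoc]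
    congr 1
    have e1 : ∀ (l k : L), ed (leaves H x) (leafSide s x) W (Sum.inr l) (Sum.inr k)
        (z (Sum.inr l)) (z (Sum.inr k)) = 1 := by
      intro l k
      unfold ed
      rw [if_neg]
      rintro ⟨h0, _⟩
      exact h0
    simp only [e1, prod_const_one, mul_one]
    rw [prod_comm, ← prod_mul_distrib]
    refine prod_congr rfl fun l _ => ?_
    rw [Finset.prod_eq_single (x l), Finset.prod_eq_single (x l)]
    · unfold ed
      rw [hf]
      cases hsl : s (x l) <;> simp [leaves, leafSide, hsl]
    · intro v _ hv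
      unfold ed
      rw [if_neg]
      rintro ⟨h0, _⟩
      exact hv h0
    · intro h0
      exact absurd (mem_univ _) h0
    · intro v _ hv
      unfold ed
      rw [if_neg]
      rintro ⟨h0, _⟩
      exact hv h0
    · intro h0
      exact absurd (mem_univ _) h0
  simp only [hE]
  rw [← (Equiv.sumArrowEquivProdArrow V L U).symm.sum_comp, Fintype.sum_prod_type]
  refine Finset.sum_congr rfl fun a _ => ?_
  simp only [Fintype.prod_sum_type, Equiv.sumArrowEquivProdArrow, Equiv.coe_fn_symm_mk,
    Sum.elim_inl, Sum.elim_inr, leafSide]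
  by_cases ha : ∏ v, m (s v) (a v) = 0
  · simp [ha]
  have hone : ∑ b : L → U, ∏ l, (m (!s (x l)) (b l) * f l (a (x l)) (b l)) = 1 := by
    have h2 := Finset.prod_univ_sum (fun _ : L => (univ : Finset U))
      fun l u => m (!s (x l)) u * f l (a (x l)) u
    rw [Fintype.piFinset_univ] at h2
    rw [← h2]
    refine prod_eq_one fun l _ => ?_
    have h3 : m (s (x l)) (a (x l)) ≠ 0 := fun h0 => ha (prod_eq_zero (mem_univ (x l)) h0)
    rw [hf]
    cases hsl : s (x l)
    · rw [hsl] at h3
      simpa [hsl] using hb.row _ h3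
    · rw [hsl] at h3
      simpa [hsl] using hb.col _ h3
  have h5 : ∀ b : L → U, (∏ v, m (s v) (a v)) * (∏ l, m (!s (x l)) (b l)) *
      ((∏ e ∈ sideEdges H s, W (a e.1) (a e.2)) * ∏ l, f l (a (x l)) (b l)) =
      ((∏ v, m (s v) (a v)) * ∏ e ∈ sideEdges H s, W (a e.1) (a e.2)) *
        ∏ l, (m (!s (x l)) (b l) * f l (a (x l)) (b l)) := by
    intro b
    rw [prod_mul_distrib]
    ring
  simp only [h5]
  rw [← mul_sum, hone, mul_one]

end leaf

end Vale.Agent.P050.H687
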