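import Vale.Agent.P050.H687.Marg
import Vale.Agent.P050.H346.Thin
import Vale.Agent.P050.H410.Fact1
import Vale.Agent.P050.H499.Fact2
import Vale.Agent.P050.H869.Clo.CaseA
import Vale.Agent.P050.H743.Clo.CaseB

/-!
P050: substitution of a two-sided Sidorenko graph into a two-sided Sidorenko graph.
-/

namespace Vale.Agent.P050.H687

theorem main : MainStmt := by
  intro VG V _ _ _ _ G t H s K τ hne hG hH hGi hHi hK h
  rcases h with h | h
  · exact H869.Clo.caseA H346.thin (H410.fact1 marg) (H499.fact2 marg) VG V G t H s K τ hne hG hH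
      hGi hHi hK h
  · exact H743.Clo.caseB H346.thin (H410.fact1 marg) (H499.fact2 marg) VG V G t H s K τ hne hG hH
      hGi hHi hK h

end Vale.Agent.P050.H687
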