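import Vale.Agent.P050.H687.Spec

/-!
[MARG]: marginals of a product measure.
-/

set_option linter.unusedSectionVars false

namespace Vale.Agent.P050.H687

open Finset

theorem sum_prod_one {I U : Type} [Fintype I] [DecidableEq I] [Fintype U] (μ : I → U → ℝ)
    (hμ : ∀ i, ∑ u, μ i u = 1) : ∑ ω : I → U, ∏ i, μ i (ω i) = 1 := by
  classical
  have h := Finset.prod_univ_sum (fun _ : I => (univ : Finset U)) μ
  rw [Fintype.piFinset_univ] at h
  rw [← h]
  exact Finset.prod_eq_one fun i _ => hμ i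

theorem marg : MargStmt := by
  classical
  intro I V U _ _ _ _ _ j μ F hj hμ
  obtain ⟨p, e, he⟩ : ∃ (p : I → Prop) (e : V ≃ {i // p i}), ∀ v, (e v : I) = j v :=
    ⟨fun i => i ∈ Set.range j, Equiv.ofInjective j hj, fun v => rfl⟩
  rw [← (Equiv.piEquivPiSubtypeProd p fun _ => U).symm.sum_comp, Fintype.sum_prod_type,
    ← (Equiv.arrowCongr e (Equiv.refl U)).sum_comp]
  refine Finset.sum_congr rfl fun z _ => ?_
  have h0 : ∀ (b : {i // ¬ p i} → U) (v : V), (Equiv.piEquivPiSubtypeProd p fun _ => U).symm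
      ((Equiv.arrowCongr e (Equiv.refl U)) z, b) (j v) = z v := by
    intro b v
    have h3 : p (j v) := he v ▸ (e v).2
    simp only [Equiv.piEquivPiSubtypeProd, Equiv.coe_fn_symm_mk, dif_pos h3,
      Equiv.arrowCongr_apply, Equiv.coe_refl, Function.comp_apply, id]
    congr 1
    rw [Equiv.symm_apply_eq]
    exact Subtype.ext (he v).symm
  have h1 : ∀ b : {i // ¬ p i} → U,
      (∏ i, μ i ((Equiv.piEquivPiSubtypeProd p fun _ => U).symm
        ((Equiv.arrowCongr e (Equiv.refl U)) z, b) i)) =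
      (∏ v, μ (j v) (z v)) * ∏ i : {i // ¬ p i}, μ i (b i) := by
    intro b
    have hE : ∏ i : {i // p i}, μ i ((Equiv.piEquivPiSubtypeProd p fun _ => U).symm
        ((Equiv.arrowCongr e (Equiv.refl U)) z, b) i) = ∏ v, μ (j v) (z v) := by
      rw [← Equiv.prod_comp e]
      refine Finset.prod_congr rfl fun v _ => ?_
      rw [he v, h0 b v]
    have hE' : ∏ i : {i // ¬ p i}, μ i ((Equiv.piEquivPiSubtypeProd p fun _ => U).symm
        ((Equiv.arrowCongr e (Equiv.refl U)) z, b) i) = ∏ i : {i // ¬ p i}, μ i (b i) := by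
      refine Finset.prod_congr rfl fun i _ => ?_
      simp only [Equiv.piEquivPiSubtypeProd, Equiv.coe_fn_symm_mk, dif_neg i.2, Subtype.coe_eta]
    rw [← hE, ← hE']
    exact (Fintype.prod_subtype_mul_prod_subtype p _).symm
  have h4 : ∀ b : {i // ¬ p i} → U, (fun v => (Equiv.piEquivPiSubtypeProd p fun _ => U).symm
        ((Equiv.arrowCongr e (Equiv.refl U)) z, b) (j v)) = z := fun b => funext (h0 b)
  simp only [h1, h4]
  rw [← Finset.sum_mul, ← Finset.mul_sum]
  have h5 := sum_prod_one (I := {i // ¬ p i}) (fun i => μ i) fun i => hμ i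
  refine (congrArg (fun c => (∏ v, μ (j v) (z v)) * c * F z) ?_).trans (by rw [mul_one])
  convert h5

end Vale.Agent.P050.H687
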