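import Vale.Agent.P050.H149.Red
import Vale.Agent.P050.H177.NetDefs

/-!
# P050: substitution into two-sided Sidorenko graphs (helper687): statements

Typed interface: each block proves `theorem … : XStmt`.
-/

set_option linter.unusedSectionVars false

namespace Vale.Agent.P050.H687

open Finset Vale.Agent.P050.Lev Vale.Agent.P050.Tmpl Vale.Agent.P050.H177

/-- biregular kernels, all means being `1` -/
structure Bir {U : Type} [Fintype U] (m : Bool → U → ℝ) (W : U → U → ℝ) : Prop where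
  m0 : ∀ b x, 0 ≤ m b x
  m1 : ∀ b, ∑ x, m b x = 1
  W0 : ∀ x y, 0 ≤ W x y
  row : ∀ x, m false x ≠ 0 → ∑ y, m true y * W x y = 1
  col : ∀ y, m true y ≠ 0 → ∑ x, m false x * W x y = 1

open Classical in
/-- the factor of the pair `u v` -/
noncomputable def ed {V U : Type} (H : SimpleGraph V) (s : V → Bool) (W : U → U → ℝ) (u v : V)
    (x y : U) : ℝ :=
  if H.Adj u v ∧ s u = false ∧ s v = true then W x y else 1

/-- the product of the weights -/
def pm {V U : Type} [Fintype V] (s : V → Bool) (m : Bool → U → ℝ) (x : V → U) : ℝ :=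
  ∏ v, m (s v) (x v)

/-- the edges inside `K` -/
noncomputable def aw {V U : Type} [Fintype V] [DecidableEq V] (H : SimpleGraph V) (s : V → Bool)
    (W : U → U → ℝ) (K : Finset V) (r : V → U) : ℝ :=
  ∏ u, ∏ v, if u ∈ K ∧ v ∈ K then ed H s W u v (r u) (r v) else 1

/-- the edges inside `K ∪ B` which are not inside `K` -/
noncomputable def bw {V U : Type} [Fintype V] [DecidableEq V] (H : SimpleGraph V) (s : V → Bool)
    (W : U → U → ℝ) (K B : Finset V) (r x : V → U) : ℝ :=
  ∏ u, ∏ v, (if u ∈ K ∧ v ∈ B then ed H s W u v (r u) (x v) else 1) *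
    (if u ∈ B ∧ v ∈ K then ed H s W u v (x u) (r v) else 1) *
    (if u ∈ B ∧ v ∈ B then ed H s W u v (x u) (x v) else 1)

/-- the edges between `X` and `Y` -/
noncomputable def dw {V U : Type} [Fintype V] [DecidableEq V] (H : SimpleGraph V) (s : V → Bool)
    (W : U → U → ℝ) (X Y : Finset V) (x y : V → U) : ℝ :=
  ∏ u, ∏ v, (if u ∈ X ∧ v ∈ Y then ed H s W u v (x u) (y v) else 1) *
    (if u ∈ Y ∧ v ∈ X then ed H s W u v (y u) (x v) else 1)

/-- the part `b` -/
def pt {V : Type} [Fintype V] [DecidableEq V] (τ : V → Bool) (K : Finset V) (b : Bool) : Finset V :=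
  univ.filter fun v => v ∉ K ∧ τ v = b

/-- [MARG] marginals of a product measure -/
def MargStmt : Prop :=
  ∀ (I V U : Type) [Fintype I] [DecidableEq I] [Fintype V] [DecidableEq V] [Fintype U]
    (j : V → I) (μ : I → U → ℝ) (F : (V → U) → ℝ), Function.Injective j →
    (∀ i, ∑ u, μ i u = 1) →
    ∑ ω : I → U, (∏ i, μ i (ω i)) * F (fun v => ω (j v)) = ∑ z : V → U, (∏ v, μ (j v) (z v)) * F z

/-- [THIN] a part which is thin over `K` has mass one -/
def ThinStmt : Prop :=
  ∀ (V U : Type) [Fintype V] [DecidableEq V] [Fintype U] (m : Bool → U → ℝ) (W : U → U → ℝ)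
    (H : SimpleGraph V) (s : V → Bool) (K B : Finset V) (r : V → U), Bir m W →
    (∀ u v, H.Adj u v → s u ≠ s v) → (∀ v ∈ K, m (s v) (r v) ≠ 0) → Thin H K B →
    ∑ x : V → U, pm s m x * bw H s W K B r x = 1

/-- [FACT1] the density of `H` -/
def FactStmt : Prop :=
  ∀ (V U : Type) [Fintype V] [DecidableEq V] [Fintype U] (m : Bool → U → ℝ) (W : U → U → ℝ)
    (H : SimpleGraph V) (s : V → Bool) (K : Finset V) (τ : V → Bool), (∀ b, ∑ x, m b x = 1) →
    (∑ z : V → U, (∏ v, m (s v) (z v)) * ∏ e ∈ sideEdges H s, W (z e.1) (z e.2)) =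
      ∑ r : V → U, pm s m r * aw H s W K r * ∑ x : V → U, pm s m x *
        bw H s W K (pt τ K false) r x * ∑ y : V → U, pm s m y *
        bw H s W K (pt τ K true) r y * dw H s W (pt τ K false) (pt τ K true) x y

/-- [FACT2] the density of the substitution -/
def SubStmt : Prop :=
  ∀ (VG V U : Type) [Fintype VG] [DecidableEq VG] [Fintype V] [DecidableEq V] [Fintype U]
    (m : Bool → U → ℝ) (W : U → U → ℝ) (G : SimpleGraph VG) (t : VG → Bool) (H : SimpleGraph V)
    (s : V → Bool) (K : Finset V) (τ : V → Bool), (∀ b, ∑ x, m b x = 1) →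
    (∀ p q, G.Adj p q → t p ≠ t q) →
    (∑ z : RV t τ K → U, (∏ a, m (subSide s t τ K a) (z a)) *
      ∏ e ∈ sideEdges (relSub G t H τ K) (subSide s t τ K), W (z e.1) (z e.2)) =
      ∑ r : V → U, pm s m r * aw H s W K r * ∑ Z : VG → V → U,
        (∏ p, pm s m (Z p) * bw H s W K (pt τ K (t p)) r (Z p)) *
        ∏ e ∈ sideEdges G t, dw H s W (pt τ K false) (pt τ K true) (Z e.1) (Z e.2)

/-- [MAIN] -/
def MainStmt : Prop :=
  ∀ (VG V : Type) [Fintype VG] [DecidableEq VG] [Fintype V] [DecidableEq V]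
    (G : SimpleGraph VG) (t : VG → Bool) (H : SimpleGraph V) (s : V → Bool) (K : Finset V)
    (τ : V → Bool), Nonempty VG → GSid G t → GSid H s → (∀ p, ∃ q, G.Adj p q) →
    (∀ u, ∃ v, H.Adj u v) →
    Thin H ∅ K → ((∀ b, Thin H K (pt τ K b)) ∨ Thin H (K ∪ pt τ K false) (pt τ K true)) →
    GSid (relSub G t H τ K) (subSide s t τ K)

end Vale.Agent.P050.H687
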